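import Vale.Agent.P274.Full.SA
import Mathlib.Analysis.Calculus.ContDiff.Defs
import Mathlib.Analysis.Calculus.FDeriv.Basic
import Mathlib.Analysis.Calculus.Deriv.Basic
import Mathlib.Analysis.Complex.Basic
import Mathlib.Analysis.Convex.Basic
import Mathlib.LinearAlgebra.Determinant
import Mathlib.Topology.Algebra.ConstMulAction
import Mathlib.Topology.UniformSpace.LocallyUniformConvergence

/-!
Shared definitions for bounded semialgebraic domains in affine varieties.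
-/

open Filter Metric Set Function Topology

namespace Vale.Agent.P274.Full

noncomputable section

/-- Complex coordinate space. -/
abbrev Cn (n : ℕ) : Type := EuclideanSpace ℂ (Fin n)

/-- Real coordinate space. -/
abbrev Rn (n : ℕ) : Type := EuclideanSpace ℝ (Fin n)

/-- Model space with `m` free and `k` tube coordinates. -/
abbrev Mod (m k : ℕ) : Type := Cn m × Cn k

/-- Real coordinates of a point of complex coordinate space. -/
def rc {n : ℕ} (z : Cn n) : Fin n ⊕ Fin n → ℝ :=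
  Sum.elim (fun i => (z i).re) fun i => (z i).im

/-- Real coordinates of a point of the model space. -/
def rcMod {m k : ℕ} (p : Mod m k) : (Fin m ⊕ Fin m) ⊕ (Fin k ⊕ Fin k) → ℝ :=
  Sum.elim (rc p.1) (rc p.2)

/-- Real part, coordinatewise. -/
def rv {k : ℕ} (w : Cn k) : Rn k := WithLp.toLp 2 fun i => (w i).re

/-- Imaginary part, coordinatewise. -/
def iv {k : ℕ} (w : Cn k) : Rn k := WithLp.toLp 2 fun i => (w i).im

/-- The point with given real and imaginary part. -/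
def mkC {k : ℕ} (u v : Rn k) : Cn k := WithLp.toLp 2 fun i => (⟨u i, v i⟩ : ℂ)

/-- Coordinates of a point of `ℂᵐ × ℝᵏ`. -/
def rcBase {m k : ℕ} (x : Cn m × Rn k) : (Fin m ⊕ Fin m) ⊕ Fin k → ℝ :=
  Sum.elim (rc x.1) fun i => x.2 i

/-- Holomorphic on a subset: locally the restriction of an ambient holomorphic map. -/
def HolOn {E F : Type*} [NormedAddCommGroup E] [NormedSpace ℂ E] [NormedAddCommGroup F]
    [NormedSpace ℂ F] (f : E → F) (U : Set E) : Prop :=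
  ∀ x ∈ U, ∃ (W : Set E) (g : E → F), IsOpen W ∧ x ∈ W ∧ DifferentiableOn ℂ g W ∧
    EqOn f g (W ∩ U)

/-- A bounded domain of an affine variety with a proper cocompact group of biholomorphisms. -/
structure CDom (N : ℕ) where
  eqs : Finset (MvPolynomial (Fin N) ℂ)
  Z : Set (Cn N)
  Z_eq : Z = {z | ∀ p ∈ eqs, MvPolynomial.eval (fun i => z i) p = 0}
  U : Set (Cn N)
  O : Set (Cn N)
  isOpen_O : IsOpen O
  U_eq : U = Z ∩ O
  connected_U : IsConnected U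
  bounded_U : Bornology.IsBounded U
  sa_U : SA ((fun z : Cn N => rc z) '' U)
  G : Type
  act : G → Cn N → Cn N
  back : G → Cn N → Cn N
  maps : ∀ g, MapsTo (act g) U U
  maps_back : ∀ g, MapsTo (back g) U U
  hol : ∀ g, HolOn (act g) U
  hol_back : ∀ g, HolOn (back g) U
  back_act : ∀ g, ∀ z ∈ U, back g (act g z) = z
  act_back : ∀ g, ∀ z ∈ U, act g (back g z) = z
  one_mem : ∃ e, EqOn (act e) id U
  mul : ∀ g h, ∃ k, EqOn (act k) (act g ∘ act h) U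
  inv : ∀ g, ∃ k, EqOn (act k) (back g) U
  finite : ∀ K L : Set (Cn N), IsCompact K → IsCompact L → K ⊆ U → L ⊆ U →
    {g | ∃ z ∈ K, act g z ∈ L}.Finite
  K : Set (Cn N)
  compact_K : IsCompact K
  K_subset : K ⊆ U
  cover : ∀ z ∈ U, ∃ g, act g z ∈ K

/-- A local chart of dimension `m + k` of a variety: `π` is a polynomial map, `ψ` its local
inverse. -/
structure Chart {N : ℕ} (D : CDom N) (m k : ℕ) where
  π : Cn N → Mod m k
  ψ : Mod m k → Cn N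
  W : Set (Mod m k)
  B : Set (Cn N)
  isOpen_W : IsOpen W
  isOpen_B : IsOpen B
  zero_mem : (0 : Mod m k) ∈ W
  diff_π : DifferentiableOn ℂ π B
  diff_ψ : DifferentiableOn ℂ ψ W
  maps_ψ : ∀ x ∈ W, ψ x ∈ D.Z ∩ B
  maps_π : ∀ z ∈ D.Z ∩ B, π z ∈ W
  π_ψ : ∀ x ∈ W, π (ψ x) = x
  ψ_π : ∀ z ∈ D.Z ∩ B, ψ (π z) = z

/-- The domain read in a chart. -/
def Chart.Uc {N m k : ℕ} {D : CDom N} (φ : Chart D m k) : Set (Mod m k) :=
  {x | x ∈ φ.W ∧ φ.ψ x ∈ D.U}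

/-- The point over `x` at height `h x + e`. -/
def lift {m k : ℕ} (h : Cn m × Rn k → Rn k) (x : Cn m × Rn k) (e : Rn k) : Mod m k :=
  (x.1, mkC x.2 (h x + e))

/-- A piece of a generic submanifold in a chart. -/
structure Loc {N : ℕ} (D : CDom N) (m k : ℕ) extends Chart D m k where
  k_pos : 0 < k
  sa_Uc : SA (rcMod '' {x : Mod m k | x ∈ W ∧ ψ x ∈ D.U})
  S : Set (Cn m × Rn k)
  h : Cn m × Rn k → Rn k
  isOpen_S : IsOpen S
  zero_mem_S : (0 : Cn m × Rn k) ∈ S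
  sa_h : SA {y : (((Fin m ⊕ Fin m) ⊕ Fin k) ⊕ Fin k) → ℝ |
    ∃ x ∈ S, y = Sum.elim (rcBase x) fun i => h x i}
  smooth_h : ContDiffOn ℝ 3 h S
  h_zero : h 0 = 0
  dh_zero : fderiv ℝ h 0 = 0
  small_h : ∀ x ∈ S, ‖fderiv ℝ h x‖ ≤ 1 / 4
  edge_W : ∀ x ∈ S, lift h x 0 ∈ W

/-- The points of a piece. -/
def Loc.points {N m k : ℕ} {D : CDom N} (P : Loc D m k) : Set (Cn N) :=
  (fun x => P.ψ (lift P.h x 0)) '' P.S

/-- A piece of a generic edge of `U`, with peak functions at all its points. -/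
structure Patch {N : ℕ} (D : CDom N) (m k : ℕ) extends Loc D m k where
  edge_frontier : ∀ x ∈ S, ψ (lift h x 0) ∈ closure D.U \ D.U
  peak : ∀ x ∈ S, ∃ (G : Fin k → Mod m k → ℂ) (c : ℝ), 0 < c ∧
    (∀ l, DifferentiableOn ℂ (G l) W) ∧ (∀ l, G l (lift h x 0) = 0) ∧
    (∀ l, ∀ y ∈ W, ψ y ∈ D.U → (G l y).re ≤ -c * ‖y - lift h x 0‖ ^ 2) ∧
    LinearIndependent ℂ fun l => fderiv ℂ (G l) (lift h x 0)
  orbit : ∀ x ∈ S, ∀ (g : ℕ → D.G) (a : ℕ → Cn N) (a₀ : Cn N), a₀ ∈ D.U → (∀ j, a j ∈ D.U) →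
    Tendsto a atTop (𝓝 a₀) → Tendsto (fun j => D.act (g j) (a j)) atTop (𝓝 (ψ (lift h x 0))) →
    ∀ K ⊆ D.U, IsCompact K →
      TendstoUniformlyOn (fun j => D.act (g j)) (fun _ => ψ (lift h x 0)) atTop K

/-- A path of points of `U` above a window of the edge. -/
structure Horn {N m k : ℕ} {D : CDom N} (P : Patch D m k) where
  S' : Set (Cn m × Rn k)
  isOpen_S' : IsOpen S'
  nonempty_S' : S'.Nonempty
  sub : S' ⊆ P.S
  t₀ : ℝ
  t₀_pos : 0 < t₀
  C : ℝ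
  e : Cn m × Rn k → ℝ → Rn k
  cont : ContinuousOn (uncurry e) (S' ×ˢ Icc 0 t₀)
  e_zero : ∀ x ∈ S', e x 0 = 0
  mem : ∀ x ∈ S', ∀ t ∈ Ioc 0 t₀, lift P.h x (e x t) ∈ P.toChart.Uc
  lip_x : ∀ x ∈ S', ∀ y ∈ S', ∀ t ∈ Icc 0 t₀, ‖e x t - e y t‖ ≤ C * t * ‖x - y‖
  lip_t : ∀ x ∈ S', ∀ s ∈ Icc 0 t₀, ∀ t ∈ Icc 0 t₀, ‖e x s - e x t‖ ≤ C * |s - t|

/-- Balls of size `l²` inside `U` at height `l²` above a window of the edge. -/
structure Inner {N m k : ℕ} {D : CDom N} (P : Patch D m k) where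
  S' : Set (Cn m × Rn k)
  isOpen_S' : IsOpen S'
  nonempty_S' : S'.Nonempty
  sub : S' ⊆ P.S
  r : ℝ
  r_pos : 0 < r
  C : ℝ
  l₀ : ℝ
  l₀_pos : 0 < l₀
  η : Cn m × Rn k → ℝ → Rn k
  bound : ∀ x ∈ S', ∀ l ∈ Ioo 0 l₀, ‖η x l‖ ≤ C
  lip : ∀ x ∈ S', ∀ y ∈ S', ∀ l ∈ Ioo 0 l₀, ‖η x l - η y l‖ ≤ C * ‖x - y‖
  mem : ∀ x ∈ S', ∀ l ∈ Ioo 0 l₀, ∀ d : Rn k, ‖d - η x l‖ < r →
    lift P.h x ((l ^ 2) • d) ∈ P.toChart.Uc

/-- The data of a Siegel domain of the second kind. -/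
structure Siegel (m k : ℕ) where
  H : Cn m →L[ℝ] Cn m →L[ℝ] Rn k
  symm : ∀ a b, H a b = H b a
  inv_I : ∀ a b, H (Complex.I • a) (Complex.I • b) = H a b
  C : Set (Rn k)
  isOpen_C : IsOpen C
  nonempty_C : C.Nonempty
  convex_C : Convex ℝ C
  cone : ∀ v ∈ C, ∀ t : ℝ, 0 < t → t • v ∈ C
  add_H : ∀ a, ∀ v ∈ C, v + H a a ∈ C
  ν : Fin k → (Rn k →L[ℝ] ℝ)
  indep : LinearIndependent ℝ ν
  pos : ∀ l, ∀ v ∈ C, 0 < ν l v
  pos_H : ∀ a, a ≠ 0 → ∃ l, 0 < ν l (H a a)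

/-- The Siegel domain. -/
def Siegel.dom {m k : ℕ} (S : Siegel m k) : Set (Mod m k) :=
  {p | iv p.2 - S.H p.1 p.1 ∈ S.C}

/-- A bounded symmetric domain. -/
def IsBSD {n : ℕ} (D : Set (Cn n)) : Prop :=
  IsOpen D ∧ IsConnected D ∧ Bornology.IsBounded D ∧
    ∀ p ∈ D, ∃ s : Cn n → Cn n, DifferentiableOn ℂ s D ∧ MapsTo s D D ∧
      (∀ z ∈ D, s (s z) = z) ∧ s p = p ∧ ∀ᶠ z in 𝓝 p, s z = z → z = p

/-- Biholomorphic subsets. -/
def BiholTo {E F : Type*} [NormedAddCommGroup E] [NormedSpace ℂ E] [NormedAddCommGroup F]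
    [NormedSpace ℂ F] (U : Set E) (D : Set F) : Prop :=
  ∃ (f : E → F) (g : F → E), HolOn f U ∧ MapsTo f U D ∧ DifferentiableOn ℂ g D ∧ MapsTo g D U ∧
    (∀ z ∈ U, g (f z) = z) ∧ ∀ w ∈ D, f (g w) = w

/-- An open domain with a proper cocompact group of automorphisms in which holomorphic maps with
one value in a compact set have values in compact sets. -/
structure TDom (E : Type) [NormedAddCommGroup E] [NormedSpace ℂ E] where
  V : Set E
  isOpen_V : IsOpen V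
  connected_V : IsConnected V
  G : Type
  act : G → E → E
  back : G → E → E
  maps : ∀ g, MapsTo (act g) V V
  maps_back : ∀ g, MapsTo (back g) V V
  diff : ∀ g, DifferentiableOn ℂ (act g) V
  diff_back : ∀ g, DifferentiableOn ℂ (back g) V
  back_act : ∀ g, ∀ z ∈ V, back g (act g z) = z
  act_back : ∀ g, ∀ z ∈ V, act g (back g z) = z
  one_mem : ∃ e, EqOn (act e) id V
  mul : ∀ g h, ∃ k, EqOn (act k) (act g ∘ act h) V
  inv : ∀ g, ∃ k, EqOn (act k) (back g) V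
  finite : ∀ K L : Set E, IsCompact K → IsCompact L → K ⊆ V → L ⊆ V →
    {g | ∃ z ∈ K, act g z ∈ L}.Finite
  K : Set E
  compact_K : IsCompact K
  K_subset : K ⊆ V
  cover : ∀ z ∈ V, ∃ g, act g z ∈ K
  taut : ∀ (n : ℕ) (O S : Set (Cn n)) (a : Cn n) (L : Set E), IsOpen O → IsPreconnected O →
    IsCompact S → S ⊆ O → a ∈ O → IsCompact L → L ⊆ V →
    ∃ L' : Set E, IsCompact L' ∧ L' ⊆ V ∧
      ∀ φ : Cn n → E, DifferentiableOn ℂ φ O → MapsTo φ O V → φ a ∈ L → MapsTo φ S L'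

/-- An automorphism of `V`, given with its inverse. -/
def IsAut {E : Type*} [NormedAddCommGroup E] [NormedSpace ℂ E] (V : Set E) (a b : E → E) : Prop :=
  DifferentiableOn ℂ a V ∧ DifferentiableOn ℂ b V ∧ MapsTo a V V ∧ MapsTo b V V ∧
    (∀ z ∈ V, b (a z) = z) ∧ ∀ z ∈ V, a (b z) = z

/-- `φ` is a one-parameter group of automorphisms of `V` with generator `X`. -/
def IsFlow {E : Type*} [NormedAddCommGroup E] [NormedSpace ℂ E] [NormedSpace ℝ E] (V : Set E)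
    (X : E → E) (φ : ℝ → E → E) : Prop :=
  (∀ t, DifferentiableOn ℂ (φ t) V) ∧ (∀ t, MapsTo (φ t) V V) ∧ (∀ z ∈ V, φ 0 z = z) ∧
    (∀ s t, ∀ z ∈ V, φ (s + t) z = φ s (φ t z)) ∧
    ∀ t, ∀ z ∈ V, HasDerivAt (fun s => φ s z) (X (φ t z)) t

/-- A holomorphic field on `V` which generates a one-parameter group of automorphisms. -/
def IsComplete {E : Type*} [NormedAddCommGroup E] [NormedSpace ℂ E] [NormedSpace ℝ E] (V : Set E)
    (X : E → E) : Prop :=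
  DifferentiableOn ℂ X V ∧ ∃ φ : ℝ → E → E, IsFlow V X φ

/-- The push-forward of a field by an automorphism. -/
def push {E : Type*} [NormedAddCommGroup E] [NormedSpace ℂ E] (a b : E → E) (X : E → E) (z : E) :
    E :=
  fderiv ℂ a (b z) (X (b z))

end

end Vale.Agent.P274.Full
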