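import Vale.Agent.P274.Full.Defs

/-!
The statements linking the modules.
-/

open Filter Metric Set Function Topology

namespace Vale.Agent.P274.Full

noncomputable section

/-- Projections of semialgebraic sets are semialgebraic. -/
def SAProjStmt : Prop :=
  ∀ (ι κ : Type) [Fintype ι] [Fintype κ] (S : Set (ι ⊕ κ → ℝ)), SA S →
    SA {x : ι → ℝ | ∃ t : κ → ℝ, Sum.elim x t ∈ S}

/-- A semialgebraic set without interior is nowhere dense. -/
def SAInteriorStmt : Prop :=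
  ∀ (ι : Type) [Fintype ι] (S : Set (ι → ℝ)), SA S → interior S = ∅ → interior (closure S) = ∅

/-- A semialgebraic set of parameters contains all small positive numbers or none. -/
def SATailStmt : Prop :=
  ∀ (ι : Type) [Fintype ι] (S : Set (ι ⊕ Unit → ℝ)), SA S → ∀ x : ι → ℝ,
    (∀ᶠ t in 𝓝[>] (0 : ℝ), Sum.elim x (fun _ => t) ∈ S) ∨
      ∀ᶠ t in 𝓝[>] (0 : ℝ), Sum.elim x (fun _ => t) ∉ S

/-- Holomorphic maps into `U` with one value in a compact set have values in compact sets. -/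
def TautStmt : Prop :=
  ∀ (N : ℕ) (D : CDom N) (n : ℕ) (O S : Set (Cn n)) (a : Cn n) (L : Set (Cn N)), IsOpen O →
    IsPreconnected O → IsCompact S → S ⊆ O → a ∈ O → IsCompact L → L ⊆ D.U →
    ∃ L' : Set (Cn N), IsCompact L' ∧ L' ⊆ D.U ∧
      ∀ φ : Cn n → Cn N, DifferentiableOn ℂ φ O → MapsTo φ O D.U → φ a ∈ L → MapsTo φ S L'

/-- The continuity principle. -/
def DiscStmt : Prop :=
  ∀ (N : ℕ) (D : CDom N) (F : ℝ → ℂ → Cn N),
    ContinuousOn (uncurry F) (Icc (0 : ℝ) 1 ×ˢ closedBall (0 : ℂ) 1) →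
    (∀ s ∈ Icc (0 : ℝ) 1, DifferentiableOn ℂ (F s) (ball 0 1)) →
    (∀ s ∈ Icc (0 : ℝ) 1, MapsTo (F s) (closedBall 0 1) D.Z) →
    MapsTo (F 0) (closedBall 0 1) D.U → (∀ s ∈ Icc (0 : ℝ) 1, MapsTo (F s) (sphere 0 1) D.U) →
    MapsTo (F 1) (closedBall 0 1) D.U

/-- The exceptional polynomial `P₀` of dimension `n`: charts off it on the closure of `U`, and
`{P₀ ≠ 0}` is dense in the smooth part of `U`. -/
structure Exc {N : ℕ} (D : CDom N) (n : ℕ) (P₀ : MvPolynomial (Fin N) ℂ) : Prop where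
  pos : 0 < n
  nontrivial : ∃ z ∈ D.U, MvPolynomial.eval (fun i => z i) P₀ ≠ 0
  chart : ∀ z ∈ closure D.U, z ∈ D.Z → MvPolynomial.eval (fun i => z i) P₀ ≠ 0 →
    ∃ φ : Chart D n 0, φ.ψ 0 = z
  dense : ∀ (φ : Chart D n 0), ∀ x ∈ φ.Uc,
    φ.ψ x ∈ closure {z | z ∈ D.U ∧ MvPolynomial.eval (fun i => z i) P₀ ≠ 0}
  equicont : ∀ (a : Cn N) (b : ℕ → Cn N) (f : ℕ → Cn N → ℂ) (M : ℝ), a ∈ D.U →
    (∀ j, b j ∈ D.U ∧ MvPolynomial.eval (fun i => b j i) P₀ ≠ 0) →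
    Tendsto b atTop (𝓝 a) → (∀ j, HolOn (f j) D.U) → (∀ j, ∀ z ∈ D.U, ‖f j z‖ ≤ M) →
    Tendsto (fun j => f j a) atTop (𝓝 0) → Tendsto (fun j => f j (b j)) atTop (𝓝 0)

/-- An exceptional polynomial exists, unless `U` is a point. -/
def AlgStmt : Prop :=
  ∀ (N : ℕ) (D : CDom N), D.U.Subsingleton ∨
    ∃ (n : ℕ) (P₀ : MvPolynomial (Fin N) ℂ), Exc D n P₀

/-- Off the zero set of a polynomial the frontier is covered by countably many generic pieces
contained in it. -/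
def PieceStmt : Prop :=
  ∀ (N : ℕ) (D : CDom N) (n : ℕ) (P₀ : MvPolynomial (Fin N) ℂ), Exc D n P₀ →
    ∃ P₁ : MvPolynomial (Fin N) ℂ,
      (∀ z : Cn N, MvPolynomial.eval (fun i => z i) P₀ = 0 →
        MvPolynomial.eval (fun i => z i) P₁ = 0) ∧
      (∃ z ∈ D.U, MvPolynomial.eval (fun i => z i) P₁ ≠ 0) ∧
      ∃ Φ : ℕ → Set (Cn N),
        (∀ i, Φ i = ∅ ∨ ∃ (m k : ℕ) (P : Loc D m k), m + k = n ∧ Φ i = P.points) ∧
        (∀ i, Φ i ⊆ closure D.U \ D.U) ∧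
        ∀ z ∈ closure D.U \ D.U, MvPolynomial.eval (fun i => z i) P₁ ≠ 0 → ∃ i, z ∈ Φ i

/-- `U` is smooth and has a generic edge with peak functions. -/
def PatchStmt : Prop :=
  ∀ (N : ℕ) (D : CDom N), D.U.Subsingleton ∨
    ∃ (m k : ℕ) (_ : Patch D m k), ∀ z ∈ D.U, ∃ φ : Chart D (m + k) 0, φ.ψ 0 = z

/-- Above a window of the edge there is a path of points of `U`. -/
def HornStmt : Prop :=
  ∀ (N m k : ℕ) (D : CDom N) (P : Patch D m k), Nonempty (Horn P)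

/-- Above a window of the edge there are balls of quadratic size in `U`. -/
def InnerStmt : Prop :=
  ∀ (N m k : ℕ) (D : CDom N) (P : Patch D m k), Nonempty (Inner P)

/-- A taut tube over a cone is given by a convex cone, stable under adding the form. -/
def HullStmt : Prop :=
  ∀ (m k : ℕ) (H : Cn m →L[ℝ] Cn m →L[ℝ] Rn k), (∀ a b, H a b = H b a) →
    (∀ a b, H (Complex.I • a) (Complex.I • b) = H a b) →
    ∀ C : Set (Rn k), IsOpen C → IsConnected C → (∀ v ∈ C, ∀ t : ℝ, 0 < t → t • v ∈ C) →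
    ∀ T : TDom (Mod m k), T.V = {p | iv p.2 - H p.1 p.1 ∈ C} →
      Convex ℝ C ∧ ∀ a, ∀ v ∈ C, v + H a a ∈ C

/-- Scaling at the edge identifies `U` with a Siegel domain. -/
def ScalingStmt : Prop :=
  ∀ (N m k : ℕ) (D : CDom N) (P : Patch D m k) (_ : Inner P),
    (∀ z ∈ D.U, ∃ φ : Chart D (m + k) 0, φ.ψ 0 = z) →
    ∃ (m' k' : ℕ) (S : Siegel m' k') (T : TDom (Mod m' k')), T.V = S.dom ∧ BiholTo D.U S.dom

/-- The combination of fields with given coefficients. -/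
def comb {E : Type*} [AddCommGroup E] [Module ℝ E] {d : ℕ} (B : Fin d → E → E) (c : Fin d → ℝ)
    (z : E) : E :=
  ∑ i, c i • B i z

/-- The algebra of complete fields: finite dimension, and automorphisms act unimodularly. -/
structure LieData {m k : ℕ} (V : Set (Mod m k)) where
  d : ℕ
  B : Fin d → Mod m k → Mod m k
  complete : ∀ c, IsComplete V (comb B c)
  span : ∀ X, IsComplete V X → ∃ c, EqOn X (comb B c) V
  indep : ∀ c, EqOn (comb B c) 0 V → c = 0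
  det : ∀ a b, IsAut V a b → ∃ L : (Fin d → ℝ) →ₗ[ℝ] (Fin d → ℝ),
    (∀ c, EqOn (push a b (comb B c)) (comb B (L c)) V) ∧ |LinearMap.det L| = 1
  iso : ∀ p ∈ V, ∃ M : ℝ, ∀ a b, IsAut V a b → a p = p → ‖fderiv ℂ a p‖ ≤ M
  uniq : ∀ p ∈ V, ∀ a b, IsAut V a b → a p = p →
    fderiv ℂ a p = ContinuousLinearMap.id ℂ (Mod m k) → EqOn a id V

/-- The algebra of complete fields of a taut domain with compact quotient. -/
def LieStmt : Prop :=
  ∀ (m k : ℕ) (T : TDom (Mod m k)), Nonempty (LieData T.V)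

/-- A Siegel domain with such an algebra of fields is symmetric. -/
def SymStmt : Prop :=
  ∀ (m k : ℕ) (S : Siegel m k), LieData S.dom → ∀ p ∈ S.dom,
    ∃ s : Mod m k → Mod m k, DifferentiableOn ℂ s S.dom ∧ MapsTo s S.dom S.dom ∧
      (∀ z ∈ S.dom, s (s z) = z) ∧ s p = p ∧ ∀ᶠ z in 𝓝 p, s z = z → z = p

/-- A Siegel domain is biholomorphic to a bounded domain. -/
def CayleyStmt : Prop :=
  ∀ (m k : ℕ) (S : Siegel m k),
    ∃ (n : ℕ) (D : Set (Cn n)), IsOpen D ∧ IsConnected D ∧ Bornology.IsBounded D ∧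
      BiholTo S.dom D

end

end Vale.Agent.P274.Full
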