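import Vale.Agent.P274.Full.Stmts
import Mathlib.Analysis.Calculus.FDeriv.Comp
import Mathlib.Topology.Algebra.Module.FiniteDimension
import Mathlib.Topology.MetricSpace.ProperSpace
import Mathlib.Topology.Algebra.MvPolynomial
import Mathlib.Analysis.InnerProductSpace.Calculus

/-!
Assembly: a bounded semialgebraic domain in an affine variety with a proper cocompact group of
biholomorphisms is biholomorphic to a bounded symmetric domain.
-/

open Filter Metric Set Function Topology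

namespace Vale.Agent.P274.Full

noncomputable section

variable {E F G : Type*} [NormedAddCommGroup E] [NormedSpace ℂ E] [NormedAddCommGroup F]
  [NormedSpace ℂ F] [NormedAddCommGroup G] [NormedSpace ℂ G]

theorem Assembly.differentiableOn {f : E → F} {U : Set E} (h : HolOn f U) (hU : IsOpen U) :
    DifferentiableOn ℂ f U := by
  intro x hx
  obtain ⟨W, g, hW, hxW, hg, he⟩ := h x hx
  refine DifferentiableAt.differentiableWithinAt ?_
  refine (hg.differentiableAt (hW.mem_nhds hxW)).congr_of_eventuallyEq ?_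
  filter_upwards [(hW.inter hU).mem_nhds ⟨hxW, hx⟩] with y hy using he hy

theorem Assembly.continuousOn {f : E → F} {U : Set E} (h : HolOn f U) : ContinuousOn f U := by
  intro x hx
  obtain ⟨W, g, hW, hxW, hg, he⟩ := h x hx
  have hWU : W ∩ U ∈ 𝓝[U] x :=
    inter_mem (mem_nhdsWithin_of_mem_nhds (hW.mem_nhds hxW)) self_mem_nhdsWithin
  exact ((hg.continuousOn.continuousWithinAt hxW).mono_of_mem_nhdsWithin
    (mem_nhdsWithin_of_mem_nhds (hW.mem_nhds hxW))).congr_of_eventuallyEq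
      (eventually_of_mem hWU fun y hy => he hy) (he ⟨hxW, hx⟩)

theorem Assembly.comp {f : E → F} {h : F → G} {U : Set E} {V : Set F} (hf : HolOn f U)
    (hV : IsOpen V) (hh : DifferentiableOn ℂ h V) (hm : MapsTo f U V) : HolOn (h ∘ f) U := by
  intro x hx
  obtain ⟨W, g, hW, hxW, hg, he⟩ := hf x hx
  refine ⟨W ∩ g ⁻¹' V, h ∘ g, hg.continuousOn.isOpen_inter_preimage hW hV, ⟨hxW, ?_⟩,
    hh.comp (hg.mono inter_subset_left) fun y hy => hy.2,
    fun y hy => congrArg h (he ⟨hy.1.1, hy.2⟩)⟩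
  show g x ∈ V
  rw [← he ⟨hxW, hx⟩]
  exact hm hx

/-- An involution with an isolated fixed point at every point survives biholomorphisms. -/
theorem Assembly.transfer {V : Set E} {D : Set F} (hV : IsOpen V) (hD : IsOpen D) (hb : BiholTo V D)
    (hs : ∀ p ∈ V, ∃ s : E → E, DifferentiableOn ℂ s V ∧ MapsTo s V V ∧
      (∀ z ∈ V, s (s z) = z) ∧ s p = p ∧ ∀ᶠ z in 𝓝 p, s z = z → z = p) :
    ∀ q ∈ D, ∃ s : F → F, DifferentiableOn ℂ s D ∧ MapsTo s D D ∧
      (∀ w ∈ D, s (s w) = w) ∧ s q = q ∧ ∀ᶠ w in 𝓝 q, s w = w → w = q := by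
  obtain ⟨f, g, hf, hfm, hg, hgm, hgf, hfg⟩ := hb
  intro q hq
  obtain ⟨s, hsd, hsm, hss, hsp, hiso⟩ := hs (g q) (hgm hq)
  refine ⟨fun w => f (s (g w)),
    (Assembly.differentiableOn hf hV).comp (hsd.comp hg hgm) (hsm.comp hgm),
    fun w hw => hfm (hsm (hgm hw)), fun w hw => ?_, by simp [hsp, hfg q hq], ?_⟩
  · simp only [hgf _ (hsm (hgm hw)), hss _ (hgm hw), hfg w hw]
  · have hc : ContinuousAt g q := hg.continuousOn.continuousAt (hD.mem_nhds hq)
    filter_upwards [hc.eventually hiso, hD.mem_nhds hq] with w hw hwD hfix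
    have h1 : s (g w) = g w := by
      have := congrArg g hfix
      rwa [hgf _ (hsm (hgm hwD))] at this
    rw [← hfg w hwD, hw h1, hfg q hq]

/-- Composition of biholomorphisms. -/
theorem Assembly.trans {U : Set E} {V : Set F} {D : Set G} (h₁ : BiholTo U V) (hV : IsOpen V)
    (h₂ : BiholTo V D) : BiholTo U D := by
  obtain ⟨f, g, hf, hfm, hg, hgm, hgf, hfg⟩ := h₁
  obtain ⟨f', g', hf', hfm', hg', hgm', hgf', hfg'⟩ := h₂
  refine ⟨f' ∘ f, g ∘ g', Assembly.comp hf hV (Assembly.differentiableOn hf' hV) hfm, hfm'.comp hfm,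
    hg.comp hg' hgm', hgm.comp hgm', fun z hz => ?_, fun w hw => ?_⟩
  · simp [hgf' _ (hfm hz), hgf z hz]
  · simp [hfg _ (hgm' hw), hfg' w hw]

theorem Assembly.isOpen_dom {m k : ℕ} (S : Siegel m k) : IsOpen S.dom := by
  refine S.isOpen_C.preimage (Continuous.sub ?_ (by fun_prop))
  refine (PiLp.continuous_toLp 2 _).comp (continuous_pi fun i => ?_)
  fun_prop

/-- The statements of the modules give the theorem for an abstract domain. -/
theorem main_cdom (hPatch : PatchStmt) (hInner : InnerStmt) (hScal : ScalingStmt)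
    (hLie : LieStmt) (hSym : SymStmt) (hCay : CayleyStmt) {N : ℕ} (D : CDom N) :
    ∃ (n : ℕ) (B : Set (Cn n)), IsBSD B ∧ BiholTo D.U B := by
  rcases hPatch N D with hsub | ⟨m, k, P, hsmooth⟩
  · obtain ⟨z₀, hz₀⟩ := D.connected_U.nonempty
    refine ⟨0, univ, ⟨isOpen_univ, isConnected_univ, (finite_univ).isBounded, fun p _ =>
      ⟨id, differentiableOn_id, fun _ _ => trivial, fun _ _ => rfl, rfl,
        Eventually.of_forall fun z _ => Subsingleton.elim z p⟩⟩,
      fun _ => 0, fun _ => z₀, fun x _ => ⟨univ, fun _ => 0, isOpen_univ, trivial,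
        differentiableOn_const 0, fun _ _ => rfl⟩, fun _ _ => trivial, differentiableOn_const z₀,
      fun _ _ => hz₀, fun z hz => hsub hz₀ hz, fun w _ => Subsingleton.elim _ _⟩
  · obtain ⟨I⟩ := hInner N m k D P
    obtain ⟨m', k', S, T, hT, hUS⟩ := hScal N m k D P I hsmooth
    obtain ⟨L⟩ := hLie m' k' T
    have hsym := hSym m' k' S (hT ▸ L)
    obtain ⟨n, B, hBo, hBc, hBb, hSB⟩ := hCay m' k' S
    exact ⟨n, B, ⟨hBo, hBc, hBb, Assembly.transfer (Assembly.isOpen_dom S) hBo hSB hsym⟩,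
      Assembly.trans hUS (Assembly.isOpen_dom S) hSB⟩

/-- The statements of the modules give the answer to the question. -/
theorem main (hPatch : PatchStmt) (hInner : InnerStmt) (hScal : ScalingStmt)
    (hLie : LieStmt) (hSym : SymStmt) (hCay : CayleyStmt) (N : ℕ)
    (eqs : Finset (MvPolynomial (Fin N) ℂ)) (Z U : Set (Cn N))
    (hZ : Z = {z | ∀ p ∈ eqs, MvPolynomial.eval (fun i => z i) p = 0})
    (hUo : ∃ O, IsOpen O ∧ U = Z ∩ O) (hUc : IsConnected U) (hUb : Bornology.IsBounded U)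
    (hUs : ∃ (l : ℕ) (P : Fin l → MvPolynomial (Fin N ⊕ Fin N) ℝ) (T : Set (Fin l → SignType)),
      ∀ z : Cn N, z ∈ U ↔ (fun i => SignType.sign (MvPolynomial.eval
        (Sum.elim (fun j => (z j).re) fun j => (z j).im) (P i))) ∈ T)
    (Γ : Type) [Group Γ] [MulAction Γ ↥U] [ProperlyDiscontinuousSMul Γ ↥U]
    [CompactSpace (Quotient (MulAction.orbitRel Γ ↥U))]
    (hhol : ∀ g : Γ, ∀ x : ↥U, ∃ (W : Set (Cn N)) (A : Cn N → Cn N), IsOpen W ∧
      (x : Cn N) ∈ W ∧ DifferentiableOn ℂ A W ∧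
      ∀ y : ↥U, (y : Cn N) ∈ W → A y = ((g • y : ↥U) : Cn N)) :
    ∃ (n : ℕ) (B : Set (Cn n)), IsBSD B ∧ BiholTo U B := by
  classical
  obtain ⟨O, hO, hU⟩ := hUo
  have hsa : SA ((fun z : Cn N => rc z) '' U) := by
    obtain ⟨l, P, T, h⟩ := hUs
    refine ⟨l, P, T, fun x => ?_⟩
    let z : Cn N := WithLp.toLp 2 fun j => ⟨x (Sum.inl j), x (Sum.inr j)⟩
    have hz : rc z = x := by
      funext j
      cases j <;> rfl
    constructor
    · rintro ⟨w, hw, rfl⟩
      exact (h w).1 hw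
    · intro hx
      exact ⟨z, (h z).2 (by rw [← hz] at hx; exact hx), hz⟩
  let act : Γ → Cn N → Cn N := fun g z => if hz : z ∈ U then (g • (⟨z, hz⟩ : ↥U) : ↥U) else z
  have act_eq : ∀ g (z : Cn N) (hz : z ∈ U), act g z = ((g • (⟨z, hz⟩ : ↥U) : ↥U) : Cn N) :=
    fun g z hz => dif_pos hz
  have hmaps : ∀ g, MapsTo (act g) U U := fun g z hz => by
    rw [act_eq g z hz]
    exact Subtype.coe_prop _
  have hholo : ∀ g, HolOn (act g) U := fun g z hz => by
    obtain ⟨W, A, hW, hzW, hA, he⟩ := hhol g ⟨z, hz⟩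
    exact ⟨W, A, hW, hzW, hA, fun y hy => by rw [act_eq g y hy.2, he ⟨y, hy.2⟩ hy.1]⟩
  have hinv : ∀ g, ∀ z ∈ U, act g⁻¹ (act g z) = z := fun g z hz => by
    rw [act_eq g z hz, act_eq g⁻¹ _ (Subtype.coe_prop _)]
    simp
  have hcont : ∀ g : Γ, Continuous fun x : ↥U => g • x := fun g => by
    refine continuous_induced_rng.2 ?_
    have : Continuous (U.domRestrict (act g)) :=
      continuousOn_iff_continuous_domRestrict.1 (Assembly.continuousOn (hholo g))
    convert this using 1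
    funext x
    exact (act_eq g x x.2).symm
  have : ContinuousConstSMul Γ ↥U := ⟨hcont⟩
  have hfin : ∀ K L : Set (Cn N), IsCompact K → IsCompact L → K ⊆ U → L ⊆ U →
      {g | ∃ z ∈ K, act g z ∈ L}.Finite := by
    intro K L hK hL hKU hLU
    have hpre : ∀ K : Set (Cn N), IsCompact K → K ⊆ U →
        IsCompact (Subtype.val ⁻¹' K : Set ↥U) := fun K hK hKU =>
      IsInducing.subtypeVal.isCompact_preimage' hK (by simpa using hKU)
    refine (ProperlyDiscontinuousSMul.finite_disjoint_inter_image (Γ := Γ) (hpre K hK hKU)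
      (hpre L hL hLU)).subset ?_
    rintro g ⟨z, hz, hgz⟩
    rw [act_eq g z (hKU hz)] at hgz
    exact ⟨g • ⟨z, hKU hz⟩, ⟨⟨z, hKU hz⟩, hz, rfl⟩, hgz⟩
  -- a compact set meeting every orbit
  have hZc : IsClosed Z := by
    rw [hZ]
    simp only [ofPred_forall]
    refine isClosed_biInter fun p _ => isClosed_eq ?_ continuous_const
    exact p.continuous_eval.comp (PiLp.continuous_ofLp 2 _)
  have hball : ∀ x : ↥U, ∃ r : ℝ, 0 < r ∧ IsCompact (closedBall (x : Cn N) r ∩ U) := by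
    intro x
    have hxO : (x : Cn N) ∈ O := (hU ▸ x.2 : (x : Cn N) ∈ Z ∩ O).2
    obtain ⟨r, hr, hrO⟩ := Metric.nhds_basis_closedBall.mem_iff.1 (hO.mem_nhds hxO)
    refine ⟨r, hr, ?_⟩
    have : closedBall (x : Cn N) r ∩ U = closedBall (x : Cn N) r ∩ Z := by
      refine Set.ext fun y => ⟨fun h => ⟨h.1, ?_⟩, fun h => ⟨h.1, ?_⟩⟩
      · exact ((Set.ext_iff.1 hU y).1 h.2).1
      · exact (Set.ext_iff.1 hU y).2 ⟨h.2, hrO h.1⟩
    rw [this]
    exact (isCompact_closedBall _ _).inter_right hZc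
  choose r hr hcomp using hball
  let V : ↥U → Set (Quotient (MulAction.orbitRel Γ ↥U)) := fun x =>
    Quotient.mk _ '' (Subtype.val ⁻¹' ball (x : Cn N) (r x))
  have hV : ∀ x, IsOpen (V x) := fun x =>
    isOpenMap_quotient_mk'_mul _ (isOpen_ball.preimage continuous_subtype_val)
  obtain ⟨t, ht⟩ := isCompact_univ.elim_finite_subcover V hV fun q _ => by
    obtain ⟨x, rfl⟩ := Quotient.exists_rep q
    exact mem_iUnion.2 ⟨x, x, mem_ball_self (hr x), rfl⟩
  let K : Set (Cn N) := ⋃ x ∈ t, closedBall (x : Cn N) (r x) ∩ U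
  have hK : IsCompact K := t.isCompact_biUnion fun x _ => hcomp x
  have hKU : K ⊆ U := iUnion₂_subset fun _ _ => inter_subset_right
  have hcov : ∀ z ∈ U, ∃ g, act g z ∈ K := fun z hz => by
    obtain ⟨x, hxt, y, hy, hyz⟩ := mem_iUnion₂.1 (ht (mem_univ (Quotient.mk _ (⟨z, hz⟩ : ↥U))))
    obtain ⟨g, hg⟩ := Quotient.exact hyz
    refine ⟨g, mem_iUnion₂.2 ⟨x, hxt, ?_⟩⟩
    rw [act_eq g z hz]
    have hg' : g • (⟨z, hz⟩ : ↥U) = y := hg
    rw [hg']
    exact ⟨ball_subset_closedBall hy, y.2⟩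
  exact main_cdom hPatch hInner hScal hLie hSym hCay
    { eqs := eqs, Z := Z, Z_eq := hZ, U := U, O := O, isOpen_O := hO, U_eq := hU,
      connected_U := hUc, bounded_U := hUb, sa_U := hsa, G := Γ, act := act,
      back := fun g => act g⁻¹, maps := hmaps, maps_back := fun g => hmaps _, hol := hholo,
      hol_back := fun g => hholo _, back_act := hinv,
      act_back := fun g z hz => by simpa using hinv g⁻¹ z hz,
      one_mem := ⟨1, fun z hz => by simp [act_eq 1 z hz]⟩,
      mul := fun g h => ⟨g * h, fun z hz => by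
        simp only [comp_apply, act_eq (g * h) z hz, act_eq h z hz, mul_smul,
          act_eq g _ (Subtype.coe_prop _)]⟩,
      inv := fun g => ⟨g⁻¹, fun _ _ => rfl⟩,
      finite := hfin, K := K, compact_K := hK, K_subset := hKU, cover := hcov }

end

end Vale.Agent.P274.Full
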