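import Mathlib.Algebra.MvPolynomial.Eval
import Mathlib.Data.Sign.Basic
import Mathlib.Analysis.InnerProductSpace.PiL2

/-!
Semialgebraic sets over a finite index type.
-/

namespace Vale.Agent.P274.Full

open Set

noncomputable section

/-- A semialgebraic subset of `ι → ℝ`: membership depends only on the signs of finitely many
real polynomials. -/
def SA {ι : Type} [Fintype ι] (S : Set (ι → ℝ)) : Prop :=
  ∃ (l : ℕ) (P : Fin l → MvPolynomial ι ℝ) (T : Set (Fin l → SignType)),
    ∀ x, x ∈ S ↔ (fun i => SignType.sign (MvPolynomial.eval x (P i))) ∈ T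

/-- A map is semialgebraic on `A` when its graph over `A` is. -/
def SAMap {ι κ : Type} [Fintype ι] [Fintype κ] (A : Set (ι → ℝ)) (f : (ι → ℝ) → κ → ℝ) : Prop :=
  SA {x : ι ⊕ κ → ℝ | x ∘ Sum.inl ∈ A ∧ x ∘ Sum.inr = f (x ∘ Sum.inl)}

end

end Vale.Agent.P274.Full
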